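import Vale.Agent.P042.Main

theorem Vale.Agent.Results.P042.Lower.result :
    ∃ c : ℝ, 0 < c ∧ ∀ N : ℕ, 1 ≤ N →
      c * (N : ℝ) ^ (0.7506 : ℝ) ≤ (Vale.Agent.P042.r (Polynomial.X ^ 2) N : ℝ) :=
  Vale.Agent.P042.main
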